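import Vale.Agent.P354CB.Defs2
import Vale.Agent.P354S0.Dat
import Vale.Agent.P354T.Baire

/-!
Local existence near a point of the slice, from local existence for cut off data.
-/

open scoped ContDiff
open Set Filter Topology Metric

noncomputable section

namespace Vale.Agent.P354CB63

open Vale.Agent.P354n (R4 IsConn)
open Vale.Agent.P354I (X Dat pd ee)
open Vale.Agent.P354J (PDy)
open Vale.Agent.P354R (Met Vac chr)
open Vale.Agent.P354RC (Gm)
open Vale.Agent.P354XD (tb rp_tb)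
open Vale.Agent.P354XE (Tw pt xs Lor)
open Vale.Agent.P354XU (Jt)
open Vale.Agent.P354XV (DB LOC In0 CnAt slab ovr)
open Vale.Agent.P354YC (IndAt)
open Vale.Agent.P354DT (ptL pd_pt xs_cont)

/-- A smooth function which is constant outside a compact set has bounded derivatives. -/
theorem jt_of {F : X → ℝ} (s : ContDiff ℝ ∞ F) {K : Set X} (hK : IsCompact K) {c : ℝ}
    (h : ∀ z ∉ K, F z = c) (m : ℕ) : ∃ B, ∀ B' ≥ B, ∀ z, Jt m F z B' := by
  have k : ∀ j : ℕ, ∃ C, ∀ z, ‖iteratedFDeriv ℝ j F z‖ ≤ C := fun j => by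
    obtain ⟨C, hC⟩ := hK.exists_bound_of_continuousOn
      (s.continuous_iteratedFDeriv (m := j) (by exact_mod_cast le_top)).continuousOn
    refine ⟨max C |c|, fun z => ?_⟩
    by_cases hz : z ∈ K
    · exact (hC z hz).trans (le_max_left _ _)
    · have e : F =ᶠ[𝓝 z] fun _ => c := by
        filter_upwards [hK.isClosed.isOpen_compl.mem_nhds hz] with w hw using h w hw
      rw [(e.iteratedFDeriv ℝ j).eq_of_nhds]
      refine le_max_of_le_right ?_
      cases j with
      | zero => simp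
      | succ j => simp [iteratedFDeriv_succ_const]
  choose C hC using k
  obtain ⟨E, hE⟩ := ((finite_le_nat m).image C).bddAbove
  exact ⟨E, fun B' hB z j hj => ((hC j z).trans (hE ⟨j, hj, rfl⟩)).trans hB⟩

/-- Data which agree with d near y and are flat outside a ball. -/
theorem ex_cut {d : Dat} (hd : PDy d) {y : X} (hy : y ≠ 0) (m : ℕ) :
    ∃ B d', DB m B d' ∧ ∀ z ∈ ball y (‖y‖ / 4), d'.h z = d.h z ∧ d'.K z = d.K z := by
  have y0 := norm_pos_iff.2 hy
  let χ : ContDiffBump y := ⟨‖y‖ / 4, ‖y‖ / 2, by positivity, by linarith⟩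
  have hK := isCompact_closedBall y (‖y‖ / 2)
  have c0 : ∀ z ∉ closedBall y (‖y‖ / 2), χ z = 0 := fun z hz =>
    χ.zero_of_le_dist (le_of_not_ge hz)
  have nz : ∀ z ∈ closedBall y (‖y‖ / 2), z ≠ 0 := by
    rintro z hz rfl
    rw [mem_closedBall, dist_zero_left] at hz
    linarith
  have sm : ∀ f : X → ℝ, ContDiffOn ℝ ∞ f {0}ᶜ → ContDiff ℝ ∞ fun z => χ z * f z := fun f hf =>
    contDiff_iff_contDiffAt.2 fun z => by
      by_cases hz : z ∈ closedBall y (‖y‖ / 2)
      · exact χ.contDiffAt.mul (hf.contDiffAt (isOpen_compl_singleton.mem_nhds (nz z hz)))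
      · refine (contDiffAt_const (c := (0 : ℝ))).congr_of_eventuallyEq ?_
        filter_upwards [hK.isClosed.isOpen_compl.mem_nhds hz] with w hw
        rw [c0 w hw, zero_mul]
  let d' : Dat := ⟨fun z => χ z • d.h z + (1 - χ z) • 1, fun z => χ z • d.K z⟩
  have fl : ∀ z ∉ closedBall y (‖y‖ / 2), d'.h z = 1 ∧ d'.K z = 0 := fun z hz => by
    simp [d', c0 z hz]
  have s1 : ∀ i j, ContDiff ℝ ∞ fun z => d'.h z i j := fun i j =>
    (sm _ (hd.1 i j).1).add ((contDiff_const.sub χ.contDiff).mul contDiff_const)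
  have s2 : ∀ i j, ContDiff ℝ ∞ fun z => d'.K z i j := fun i j => sm _ (hd.1 i j).2
  choose C1 h1 using fun i j => jt_of (s1 i j) hK
    (c := (1 : Matrix (Fin 3) (Fin 3) ℝ) i j) (fun z hz => by rw [(fl z hz).1]) m
  choose C2 h2 using fun i j => jt_of (s2 i j) hK (c := 0)
    (fun z hz => by rw [(fl z hz).2]; rfl) m
  obtain ⟨E, hE⟩ := (finite_range fun z : Fin 3 × Fin 3 => max (C1 z.1 z.2) (C2 z.1 z.2)).bddAbove
  obtain ⟨c, c1, hc⟩ := P354T.up_compact (d := d) hd.1 (fun z hz => (hd.2 z hz).1) hK nz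
  obtain ⟨B, b1, b2, b3, b4⟩ : ∃ B, 1 ≤ B ∧ 2 * ‖y‖ ≤ B ∧ E ≤ B ∧ (2 * ‖y‖) ^ 2 / c ≤ B :=
    ⟨max (max 1 (2 * ‖y‖)) (max E ((2 * ‖y‖) ^ 2 / c)), by simp, by simp, by simp, by simp⟩
  have nb : ∀ z ∈ closedBall y (‖y‖ / 2), ‖z‖ < 2 * ‖y‖ := fun z hz => by
    have := norm_le_norm_add_const_of_dist_le hz
    linarith
  refine ⟨B, d', ⟨fun i j => ⟨s1 i j, s2 i j⟩, fun z => ?_,
    fun z hz => fl z fun k => (nb z k).not_ge (b2.trans hz), fun z i j => ?_, fun z v => ?_⟩,
    fun z hz => ?_⟩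
  · by_cases hz : z ∈ closedBall y (‖y‖ / 2)
    · have k := hd.2 z (nz z hz)
      have k1 : (d.h z).IsSymm := by
        have := k.1.isHermitian
        rwa [Matrix.IsHermitian, Matrix.conjTranspose_eq_transpose_of_trivial] at this
      exact ⟨(k1.smul _).add (Matrix.isSymm_one.smul _), k.2.smul _⟩
    · rw [(fl z hz).1, (fl z hz).2]
      exact ⟨Matrix.isSymm_one, Matrix.isSymm_zero⟩
  · have := max_le_iff.1 ((hE ⟨(i, j), rfl⟩).trans b3)
    exact ⟨h1 i j B this.1 z, h2 i j B this.2 z⟩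
  · have e1 : ∑ i, ∑ k, (1 : Matrix (Fin 3) (Fin 3) ℝ) i k * v i * v k = ∑ i, v i ^ 2 := by
      simp [Matrix.one_apply, sq]
    have p : 0 ≤ ∑ i, v i ^ 2 := by positivity
    by_cases hz : z ∈ closedBall y (‖y‖ / 2)
    · have e2 : ∑ i, ∑ k, d'.h z i k * v i * v k =
          χ z * P354T.qf (d.h z) v + (1 - χ z) * ∑ i, v i ^ 2 := by
        rw [← e1]
        simp only [d', P354T.qf, Matrix.add_apply, Matrix.smul_apply, smul_eq_mul, Finset.mul_sum,
          ← Finset.sum_add_distrib]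
        exact Finset.sum_congr rfl fun i _ => Finset.sum_congr rfl fun k _ => by ring
      have a := hc z hz v
      have q0 : 0 ≤ P354T.qf (d.h z) v := by
        by_contra n
        nlinarith [mul_nonneg c1.le p, mul_pos_of_neg_of_neg (neg_neg_of_pos
          (pow_pos (norm_pos_iff.2 (nz z hz)) 2)) (lt_of_not_ge n)]
      have a2 : ∑ i, v i ^ 2 ≤ B * P354T.qf (d.h z) v := by
        refine le_of_mul_le_mul_left (a.trans ?_) c1
        rw [← mul_assoc]
        refine mul_le_mul_of_nonneg_right ?_ q0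
        rw [div_le_iff₀ c1] at b4
        nlinarith [nb z hz, norm_nonneg z]
      rw [e2]
      have x0 : 0 ≤ χ z := χ.nonneg
      have x1 : χ z ≤ 1 := χ.le_one
      nlinarith [mul_le_mul_of_nonneg_left a2 x0,
        mul_nonneg (mul_nonneg (sub_nonneg.2 x1) p) (sub_nonneg.2 b1)]
    · rw [(fl z hz).1, e1]
      nlinarith
  · simp [d', χ.one_of_mem_closedBall (ball_subset_closedBall hz)]

/-- The data induced on the slice t = 0, for a time orientation with positive time part. -/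
theorem ind_of {g : Tw} {D : Set R4} (o : IsOpen D) (M : Met g D) {d : Dat} {z : X}
    (hz : pt 0 z ∈ D) {Xf : R4 → R4} (hX : 0 < (Xf (pt 0 z)).1) (I : In0 g d z) :
    IndAt g Xf (pt 0) d z := by
  obtain ⟨n, n1, n2, k⟩ := I
  have r := rp_tb o M
  have c : IsConn g (Gm (tb g)) (pt 0 z) := (r.conn hz).2 fun _ _ => rfl
  refine ⟨Gm (tb g), n, c, n1, ?_, fun i j => ?_⟩
  · have h2 : ∀ i, tb g (pt 0 z) (pt 0 (ee i)) n = 0 := fun i => by
      rw [← r.eq _ hz, (k i i).1]
    set u := Xf (pt 0 z)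
    have e : tb g (pt 0 z) (n.1 • u - u.1 • n) n = 0 := by
      rw [P354XA.sp_eq (v := n.1 • u - u.1 • n) (by simp [mul_comm])]
      simp only [map_add, map_smul, add_apply, smul_apply, ← P354XA.pL_eq, h2, smul_zero, add_zero]
    rw [map_sub, map_smul, map_smul, sub_apply, smul_apply, smul_apply, ← r.eq _ hz, ← r.eq _ hz,
      n1, M.symm _ hz, smul_eq_mul, smul_eq_mul] at e
    nlinarith
  · simp only [pd_pt]
    refine ⟨(k i j).1, (k i j).2.1, ?_⟩
    have z0 : pd i (fun _ : X => pt 0 (ee j)) z = 0 := by simp [pd]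
    rw [z0, zero_add, M.symm _ hz, ← (k i j).2.2, chr, ← c]
    ring

theorem ld1 (hL : LOC) : P354CB.LD1 := by
  intro d hd hc y hy
  obtain ⟨m, hm⟩ := hL 0
  obtain ⟨B, d', b, e⟩ := ex_cut hd hy m
  obtain ⟨δ, δ0, c, c0, C, G, hG⟩ := hm B
  obtain ⟨M, S, I, V, -⟩ := hG d' b
  have y0 := norm_pos_iff.2 hy
  have V' := V (ball y (‖y‖ / 4)) isOpen_ball fun z hz => P354S0.cn_congr
    (Filter.mem_of_superset (isOpen_ball.mem_nhds hz) e) (hc z (by
      rintro rfl
      rw [mem_ball, dist_zero_left] at hz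
      linarith))
  obtain ⟨n, n1, n2, -⟩ := I y
  have os : IsOpen (slab δ) := isOpen_lt (by fun_prop) continuous_const
  let D : Set R4 := (slab δ ∩ (fun p => G d' p n n) ⁻¹' Iio 0) ∩
    {p | c * |p.1| + dist (xs p) y < ‖y‖ / 4}
  have o : IsOpen D := ((M.smooth n n).continuousOn.isOpen_inter_preimage os isOpen_Iio).inter
    (isOpen_lt (by have := xs_cont; fun_prop) continuous_const)
  have M' : Met (G d') D := ⟨fun p hp => M.lin p hp.1.1, fun p hp => M.symm p hp.1.1,
    fun p hp => M.nondeg p hp.1.1, fun a b => (M.smooth a b).mono fun p hp => hp.1.1⟩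
  have x0 : xs (pt 0 y) = y := by
    ext i
    fin_cases i <;> rfl
  have m0 : pt 0 y ∈ D := ⟨⟨by simpa [slab, pt] using δ0, n1.trans_lt (by norm_num)⟩, by
    change c * |(0 : ℝ)| + dist (xs (pt 0 y)) y < _
    rw [x0]
    simpa using hy⟩
  refine ⟨G d', D, fun _ => n, ⟨o, M', V'.imp fun _ h p hp => h p ⟨hp.1.1,
    closedBall_subset_ball' hp.2⟩, fun p hp => (S p hp.1.1).1, fun p hp => hp.1.2,
    continuousOn_const⟩, m0, n2, ?_⟩
  have c1 : ContinuousAt (pt 0) y := ptL.continuous.continuousAt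
  filter_upwards [c1.eventually (o.mem_nhds m0), ball_mem_nhds y (show 0 < ‖y‖ / 4 by positivity)]
    with z h1 h2
  exact ind_of o M' h1 n2 (P354S0.in0_congr ⟨(e z h2).1.symm, (e z h2).2.symm⟩ (I z))

end Vale.Agent.P354CB63
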